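import Vale.Agent.P235.Width.Net

/-!
Tree decompositions of networks, given by a parent map, and their behaviour under substitution.
-/

open Finset
open scoped Classical

namespace Vale.Agent.P235.Width

/-- A rooted tree decomposition of width at most `k`. -/
structure Dec (P : Net) (k : ℕ) where
  ι : Type
  [fin : Fintype ι]
  par : ι → ι
  depth : ι → ℕ
  root : ι
  depth_lt : ∀ i, i ≠ root → depth (par i) < depth i
  bag : ι → Finset P.V
  at' : P.E → ι
  at_fst : ∀ e, P.fst e ∈ bag (at' e)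
  at_snd : ∀ e, P.snd e ∈ bag (at' e)
  top : P.V → ι
  top_mem : ∀ v, v ∈ bag (top v)
  up : ∀ v i, v ∈ bag i → i ≠ top v → i ≠ root ∧ v ∈ bag (par i)
  card : ∀ i, (bag i).card ≤ k + 1

attribute [instance] Dec.fin

/-- A larger bound on the width. -/
def Dec.mono {P : Net} {k K : ℕ} (X : Dec P k) (h : k ≤ K) : Dec P K :=
  { X with card := fun i => (X.card i).trans (by omega) }

/-- The decomposition of the single edge. -/
def edgeDec : Dec edgeNet 1 where
  ι := Unit
  par := id
  depth := fun _ => 0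
  root := ()
  depth_lt := fun _ h => (h rfl).elim
  bag := fun _ => (Finset.univ : Finset Bool)
  at' := fun _ => ()
  at_fst := fun _ => Finset.mem_univ (α := Bool) _
  at_snd := fun _ => Finset.mem_univ (α := Bool) _
  top := fun _ => ()
  top_mem := fun _ => Finset.mem_univ (α := Bool) _
  up := fun _ _ _ h => (h rfl).elim
  card := fun _ => by rfl

variable {H P : Net} {k K : ℕ}

/-- The nodes of the decomposition of a substitution. -/
abbrev SI (X : Dec H k) (Y : Dec P K) : Type := Y.ι ⊕ (P.E × (X.ι ⊕ H.E × Bool))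

/-- The parent of a node. -/
noncomputable def sPar (X : Dec H k) (Y : Dec P K) : SI X Y → SI X Y
  | Sum.inl i => Sum.inl (Y.par i)
  | Sum.inr (j, Sum.inl i) =>
    if i = X.root then Sum.inl (Y.at' j) else Sum.inr (j, Sum.inl (X.par i))
  | Sum.inr (j, Sum.inr eb) => Sum.inr (j, Sum.inl (X.at' eb.1))

/-- The depth of a node. -/
def sDepth (X : Dec H k) (Y : Dec P K) : SI X Y → ℕ
  | Sum.inl i => Y.depth i
  | Sum.inr (j, Sum.inl i) => Y.depth (Y.at' j) + 1 + X.depth i
  | Sum.inr (j, Sum.inr eb) => Y.depth (Y.at' j) + 2 + X.depth (X.at' eb.1)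

/-- The bag of a node. -/
noncomputable def sBag (X : Dec H k) (Y : Dec P K) : SI X Y → Finset (SV H P)
  | Sum.inl i => (Y.bag i).image Sum.inl
  | Sum.inr (j, Sum.inl i) =>
    insert (Sum.inl (P.fst j)) (insert (Sum.inl (P.snd j))
      ((X.bag i).image fun r => Sum.inr (j, Sum.inl r)))
  | Sum.inr (j, Sum.inr eb) =>
    {Sum.inl (P.fst j), Sum.inr (j, Sum.inl (H.fst eb.1)), Sum.inr (j, Sum.inl (H.snd eb.1)),
      Sum.inr (j, Sum.inr eb)}

/-- The node at an edge. -/
def sAt (X : Dec H k) (Y : Dec P K) : SE H P → SI X Y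
  | (j, Sum.inl (e, b, _)) => Sum.inr (j, Sum.inr (e, b))
  | (j, Sum.inr (Sum.inl eb)) => Sum.inr (j, Sum.inr eb)
  | (j, Sum.inr (Sum.inr r)) => Sum.inr (j, Sum.inl (X.top r))

/-- The highest node of a vertex. -/
def sTop (X : Dec H k) (Y : Dec P K) : SV H P → SI X Y
  | Sum.inl a => Sum.inl (Y.top a)
  | Sum.inr (j, Sum.inl r) => Sum.inr (j, Sum.inl (X.top r))
  | Sum.inr (j, Sum.inr eb) => Sum.inr (j, Sum.inr eb)

theorem sAt_fst (X : Dec H k) (Y : Dec P K) :
    ∀ x : SE H P, sFst H P x ∈ sBag X Y (sAt X Y x) := by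
  rintro ⟨j, ⟨e, b, c⟩ | eb | r⟩ <;> simp [sFst, sAt, sBag, endp]
  · cases c <;> simp
  · exact X.top_mem r

theorem sAt_snd (X : Dec H k) (Y : Dec P K) :
    ∀ x : SE H P, sSnd H P x ∈ sBag X Y (sAt X Y x) := by
  rintro ⟨j, ⟨e, b, c⟩ | eb | r⟩ <;> simp [sSnd, sAt, sBag]

theorem sTop_mem (X : Dec H k) (Y : Dec P K) :
    ∀ v : SV H P, v ∈ sBag X Y (sTop X Y v) := by
  rintro (a | ⟨j, r | eb⟩) <;> simp [sTop, sBag]
  · exact Y.top_mem a
  · exact X.top_mem r

theorem sUp (X : Dec H k) (Y : Dec P K) :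
    ∀ (v : SV H P) (n : SI X Y), v ∈ sBag X Y n → n ≠ sTop X Y v →
      n ≠ Sum.inl Y.root ∧ v ∈ sBag X Y (sPar X Y n) := by
  intro v n hv hne
  have hends : ∀ (j : P.E) (i : X.ι) (a : P.V), a = P.fst j ∨ a = P.snd j →
      (Sum.inl a : SV H P) ∈ sBag X Y (sPar X Y (Sum.inr (j, Sum.inl i))) := by
    intro j i a ha
    by_cases hi : i = X.root
    · simp only [sPar, hi, if_true, sBag, Finset.mem_image]
      refine ⟨a, ?_, rfl⟩
      rcases ha with rfl | rfl
      exacts [Y.at_fst j, Y.at_snd j]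
    · rcases ha with rfl | rfl <;> simp [sPar, hi, sBag]
  rcases n with i | ⟨j, i | eb⟩
  · simp only [sBag, Finset.mem_image] at hv
    obtain ⟨a, ha, rfl⟩ := hv
    have := Y.up a i ha fun h => hne (by simp [sTop, h])
    exact ⟨fun h => this.1 (Sum.inl_injective h), Finset.mem_image_of_mem _ this.2⟩
  · refine ⟨Sum.inr_ne_inl, ?_⟩
    simp only [sBag, Finset.mem_insert, Finset.mem_image] at hv
    rcases hv with rfl | rfl | ⟨r, hr, rfl⟩
    · exact hends j i _ (Or.inl rfl)
    · exact hends j i _ (Or.inr rfl)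
    · have := X.up r i hr fun h => hne (by simp [sTop, h])
      simp [sPar, this.1, sBag, this.2]
  · refine ⟨Sum.inr_ne_inl, ?_⟩
    simp only [sBag, Finset.mem_insert, Finset.mem_singleton] at hv
    rcases hv with rfl | rfl | rfl | rfl
    · simp [sPar, sBag]
    · simp [sPar, sBag, X.at_fst]
    · simp [sPar, sBag, X.at_snd]
    · exact (hne rfl).elim

theorem sCard (X : Dec H k) (Y : Dec P K) (hk : k + 2 ≤ K) (h3 : 3 ≤ K) :
    ∀ n : SI X Y, (sBag X Y n).card ≤ K + 1 := by
  rintro (i | ⟨j, i | eb⟩)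
  · exact Finset.card_image_le.trans (Y.card i)
  · refine (Finset.card_insert_le _ _).trans ((Nat.succ_le_succ (Finset.card_insert_le _ _)).trans
      ?_)
    have := (Finset.card_image_le (f := fun r : H.V => (Sum.inr (j, Sum.inl r) : SV H P))
      (s := X.bag i)).trans (X.card i)
    omega
  · exact Finset.card_le_four.trans (by omega)

/-- Substitution raises the width only through the two apices. -/
noncomputable def stepDec (X : Dec H k) (Y : Dec P K) (hk : k + 2 ≤ K) (h3 : 3 ≤ K) :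
    Dec (step H P) K where
  ι := SI X Y
  par := sPar X Y
  depth := sDepth X Y
  root := Sum.inl Y.root
  depth_lt := by
    rintro (i | ⟨j, i | eb⟩) hne
    · simpa [sPar, sDepth] using Y.depth_lt i fun h => hne (by rw [h])
    · by_cases hi : i = X.root
      · simp only [sPar, hi, if_true, sDepth]
        omega
      · have := X.depth_lt i hi
        simp only [sPar, hi, if_false, sDepth]
        omega
    · simp only [sPar, sDepth]
      omega
  bag := sBag X Y
  at' := sAt X Y
  at_fst := sAt_fst X Y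
  at_snd := sAt_snd X Y
  top := sTop X Y
  top_mem := sTop_mem X Y
  up := sUp X Y
  card := sCard X Y hk h3

/-- The decomposition of an iterated substitution. -/
noncomputable def powDec (X : Dec H k) (hk : k + 2 ≤ K) (h3 : 3 ≤ K) : ∀ N, Dec (pow H N) K
  | 0 => edgeDec.mono (by omega)
  | N + 1 => stepDec X (powDec X hk h3 N) hk h3

/-- Networks of width `2n + 1` that force stretch almost `n + 1`. -/
theorem tower (δ : ℝ) (hδ : 0 < δ) :
    ∀ n : ℕ, ∃ H : Net, Nonempty (Dec H (2 * n + 1)) ∧ H.Forces (n + 1 - n * δ)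
  | 0 => ⟨edgeNet, ⟨edgeDec⟩, by simpa using edgeNet_forces⟩
  | n + 1 => by
    obtain ⟨H, ⟨X⟩, hH⟩ := tower δ hδ n
    obtain ⟨N, hN⟩ := pow_forces H hH hδ
    refine ⟨pow H N, ⟨powDec X (by omega) (by omega) N⟩, ?_⟩
    convert hN using 1
    push_cast
    ring

end Vale.Agent.P235.Width
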