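import Vale.Agent.P235.Width.Dec
import Vale.Agent.P235.Defs

/-!
From networks to weighted simple graphs, and the six point inequality for `L₁`.
-/

open Finset MeasureTheory

namespace Vale.Agent.P235.Width

theorem six_real (A B u v r s : ℝ) :
    |u - v| + |r - s| + 4 * |A - B| ≤
      |r - u| + |s - v| + (|A - u| + |r - u| + |r - B|) + (|A - u| + |s - u| + |s - B|) +
        (|A - v| + |r - v| + |r - B|) + (|A - v| + |s - v| + |s - B|) := by
  -- excess of a path is at least twice any backward step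
  have exc : ∀ x y : ℝ, |A - B| ≤ |A - x| + |y - x| + |y - B| ∧
      (A ≤ B → |A - B| + 2 * (x - y) ≤ |A - x| + |y - x| + |y - B|) ∧
      (B ≤ A → |A - B| + 2 * (y - x) ≤ |A - x| + |y - x| + |y - B|) := by
    intro x y
    refine ⟨?_, fun h => ?_, fun h => ?_⟩
    · linarith [abs_sub_le A x B, abs_sub_le x y B, abs_sub_comm x y]
    · rw [abs_of_nonpos (by linarith : A - B ≤ 0)]
      linarith [neg_le_abs (A - x), neg_le_abs (y - x), neg_le_abs (y - B)]
    · rw [abs_of_nonneg (by linarith : 0 ≤ A - B)]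
      linarith [le_abs_self (A - x), le_abs_self (y - x), le_abs_self (y - B)]
  obtain ⟨a1, b1, c1⟩ := exc u r
  obtain ⟨a2, b2, c2⟩ := exc u s
  obtain ⟨a3, b3, c3⟩ := exc v r
  obtain ⟨a4, b4, c4⟩ := exc v s
  rcases le_total A B with h | h
  · have := b1 h; have := b2 h; have := b3 h; have := b4 h
    rcases abs_cases (u - v) with ⟨e1, _⟩ | ⟨e1, _⟩ <;>
      rcases abs_cases (r - s) with ⟨e2, _⟩ | ⟨e2, _⟩ <;> rw [e1, e2] <;>
      linarith [le_abs_self (r - u), neg_le_abs (r - u), le_abs_self (s - v), neg_le_abs (s - v)]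
  · have := c1 h; have := c2 h; have := c3 h; have := c4 h
    rcases abs_cases (u - v) with ⟨e1, _⟩ | ⟨e1, _⟩ <;>
      rcases abs_cases (r - s) with ⟨e2, _⟩ | ⟨e2, _⟩ <;> rw [e1, e2] <;>
      linarith [le_abs_self (r - u), neg_le_abs (r - u), le_abs_self (s - v), neg_le_abs (s - v)]

theorem six_integral {X Ω : Type} [MeasurableSpace Ω] (μ : Measure Ω) (f : X → Ω → ℝ)
    (hf : ∀ x, Integrable (f x) μ) : Six fun x y => ∫ ω, |f x ω - f y ω| ∂μ := by
  intro A B u v r s
  have hI : ∀ p : X × X, Integrable (fun ω => |f p.1 ω - f p.2 ω|) μ := fun p =>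
    ((hf p.1).sub (hf p.2)).abs
  let R : List (X × X) := [(r, u), (s, v), (A, u), (r, u), (r, B), (A, u), (s, u), (s, B),
    (A, v), (r, v), (r, B), (A, v), (s, v), (s, B)]
  let L : List (X × X) := [(u, v), (r, s), (A, B), (A, B), (A, B), (A, B)]
  have h := integral_mono
    (integrable_finsetSum (Finset.univ : Finset (Fin L.length)) fun i _ => hI (L.get i))
    (integrable_finsetSum (Finset.univ : Finset (Fin R.length)) fun i _ => hI (R.get i))
    (fun ω => by
      have := six_real (f A ω) (f B ω) (f u ω) (f v ω) (f r ω) (f s ω)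
      simp [L, R, Fin.sum_univ_succ]
      linarith)
  rw [integral_finsetSum _ fun i _ => hI (L.get i),
    integral_finsetSum _ fun i _ => hI (R.get i)] at h
  simp [L, R, Fin.sum_univ_succ] at h
  linarith

variable (P : Net)

/-- The simple graph of a network. -/
def graph : SimpleGraph P.V :=
  SimpleGraph.fromRel fun x y => ∃ e, P.fst e = x ∧ P.snd e = y

/-- The edge lengths of the simple graph: parallel edges keep the shortest. -/
noncomputable def weight (x : Sym2 P.V) : ℝ :=
  ⨅ e : {e : P.E // s(P.fst e, P.snd e) = x}, P.len e.1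

theorem edge_of_adj {x y : P.V} (h : (graph P).Adj x y) : ∃ e, s(P.fst e, P.snd e) = s(x, y) := by
  rcases ((SimpleGraph.fromRel_adj _ _ _).mp h).2 with ⟨e, rfl, rfl⟩ | ⟨e, rfl, rfl⟩
  exacts [⟨e, rfl⟩, ⟨e, Sym2.eq_swap⟩]

theorem adj_edge (e : P.E) : (graph P).Adj (P.fst e) (P.snd e) :=
  (SimpleGraph.fromRel_adj _ _ _).mpr ⟨P.ne e, Or.inl ⟨e, rfl, rfl⟩⟩

theorem weight_attained {x y : P.V} (h : (graph P).Adj x y) :
    ∃ e, s(P.fst e, P.snd e) = s(x, y) ∧ weight P s(x, y) = P.len e := by
  obtain ⟨e, he⟩ := edge_of_adj P h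
  have : Nonempty {e : P.E // s(P.fst e, P.snd e) = s(x, y)} := ⟨⟨e, he⟩⟩
  obtain ⟨e', he'⟩ := exists_eq_ciInf_of_finite
    (f := fun e : {e : P.E // s(P.fst e, P.snd e) = s(x, y)} => P.len e.1)
  exact ⟨e'.1, e'.2, he'.symm⟩

theorem weight_pos (x y : P.V) (h : (graph P).Adj x y) : 0 < weight P s(x, y) := by
  obtain ⟨e, -, he⟩ := weight_attained P h
  exact he ▸ P.pos e

theorem weight_le (e : P.E) : weight P s(P.fst e, P.snd e) ≤ P.len e :=
  ciInf_le (f := fun i : {i : P.E // s(P.fst i, P.snd i) = s(P.fst e, P.snd e)} => P.len i.1)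
    (Finite.bddBelow_range _) ⟨e, rfl⟩

theorem graph_connected : (graph P).Connected := by
  classical
  have : Nonempty P.V := ⟨P.fst P.e0⟩
  refine ⟨fun x y => by_contra fun hxy => ?_⟩
  let φ : P.V → ℝ := fun z => if (graph P).Reachable x z then P.D + 1 else 0
  have hφ : P.Lip φ := fun e => by
    have hr : (graph P).Reachable x (P.fst e) ↔ (graph P).Reachable x (P.snd e) :=
      ⟨fun h => h.trans (adj_edge P e).reachable, fun h => h.trans (adj_edge P e).symm.reachable⟩
    simp [φ, hr, (P.pos e).le]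
  have := P.hD φ hφ x y
  simp [φ, hxy] at this
  linarith

theorem lip_walk {φ : P.V → ℝ} (hφ : P.Lip φ) {x y : P.V} (p : (graph P).Walk x y) :
    φ x - φ y ≤ walkLen (weight P) p := by
  induction p with
  | nil => simp [walkLen]
  | @cons x z y h p ih =>
    obtain ⟨e, he, hw⟩ := weight_attained P h
    have hb := hφ e
    rw [← hw, abs_le] at hb
    have hlen : walkLen (weight P) (SimpleGraph.Walk.cons h p) =
        weight P s(x, z) + walkLen (weight P) p := by simp [walkLen]
    rcases Sym2.eq_iff.mp he with ⟨h1, h2⟩ | ⟨h1, h2⟩ <;> rw [h1, h2] at hb <;> linarith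

/-- A metric domination of the simple graph gives one of the network. -/
theorem transfer {c C : ℝ} (hP : P.Forces c) (hc : 0 < c) {d : P.V → P.V → ℝ} (h6 : Six d)
    (hd : ∀ x y, pathDist (graph P) (weight P) x y ≤ d x y ∧
      d x y ≤ C * pathDist (graph P) (weight P) x y) : c ≤ C := by
  have hpd : ∀ x y (φ : P.V → ℝ), P.Lip φ → φ x - φ y ≤ pathDist (graph P) (weight P) x y := by
    intro x y φ hφ
    have : Nonempty ((graph P).Walk x y) := graph_connected P x y
    exact le_ciInf fun p => lip_walk P hφ p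
  have := hP d h6 (fun φ hφ x y => (hpd x y φ hφ).trans (hd x y).1) (max C 0) fun e => by
    have h0 := hpd (P.fst e) (P.snd e) (fun _ => 0) fun e => by simpa using (P.pos e).le
    have h1 : pathDist (graph P) (weight P) (P.fst e) (P.snd e) ≤ P.len e := by
      refine le_trans (le_trans (ciInf_le ?_ (adj_edge P e).toWalk) (le_of_eq ?_)) (weight_le P e)
      · exact ⟨0, by
          rintro _ ⟨p, rfl⟩
          simpa using lip_walk P (φ := fun _ => 0) (fun e => by simpa using (P.pos e).le) p⟩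
      · simp [walkLen]
    rw [sub_self] at h0
    exact (hd _ _).2.trans ((mul_le_mul_of_nonneg_right (le_max_left _ _) h0).trans
      (mul_le_mul_of_nonneg_left h1 (le_max_right _ _)))
  rcases max_cases C 0 with ⟨h, _⟩ | ⟨h, _⟩ <;> rw [h] at this <;> linarith

variable {P} {k : ℕ}

/-- The tree of a rooted decomposition. -/
def tree (X : Dec P k) : SimpleGraph X.ι :=
  SimpleGraph.fromRel fun i j => i ≠ X.root ∧ X.par i = j

theorem tree_adj_par (X : Dec P k) {i : X.ι} (h : i ≠ X.root) : (tree X).Adj i (X.par i) :=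
  (SimpleGraph.fromRel_adj _ _ _).mpr
    ⟨fun e => (X.depth_lt i h).ne (by rw [← e]), Or.inl ⟨h, rfl⟩⟩

theorem tree_isTree (X : Dec P k) : (tree X).IsTree := by
  classical
  have hroot : ∀ n, ∀ i, X.depth i = n → (tree X).Reachable i X.root := by
    intro n
    induction n using Nat.strong_induction_on with
    | _ n ih =>
      intro i hi
      by_cases h : i = X.root
      · subst h; rfl
      · exact (tree_adj_par X h).reachable.trans (ih _ (hi ▸ X.depth_lt i h) _ rfl)
  rw [SimpleGraph.isTree_iff_connected_and_card]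
  have : Nonempty X.ι := ⟨X.root⟩
  refine ⟨⟨fun i j => (hroot _ i rfl).trans (hroot _ j rfl).symm⟩, ?_⟩
  let F : {i // i ≠ X.root} → (tree X).edgeSet := fun i =>
    ⟨s(i.1, X.par i.1), tree_adj_par X i.2⟩
  have hF : Function.Bijective F := by
    constructor
    · intro i j h
      rcases Sym2.eq_iff.mp (congrArg Subtype.val h) with ⟨h1, -⟩ | ⟨h1, h2⟩
      · exact Subtype.ext h1
      · have a := X.depth_lt _ i.2
        have b := X.depth_lt _ j.2
        rw [h2] at a
        rw [← h1] at b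
        omega
    · rintro ⟨e, he⟩
      induction e using Sym2.ind with
      | h a b =>
        have hab : (tree X).Adj a b := he
        rcases ((SimpleGraph.fromRel_adj _ _ _).mp hab).2 with ⟨h1, rfl⟩ | ⟨h1, rfl⟩
        exacts [⟨⟨a, h1⟩, rfl⟩, ⟨⟨b, h1⟩, Subtype.ext Sym2.eq_swap⟩]
  rw [← Nat.card_eq_of_bijective F hF, Nat.card_eq_fintype_card, Nat.card_eq_fintype_card,
    Fintype.card_subtype_compl, Fintype.card_subtype_eq]
  have := Fintype.card_pos (α := X.ι)
  omega

theorem tree_preconnected (X : Dec P k) (v : P.V) :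
    ((tree X).induce {i | v ∈ X.bag i}).Preconnected := by
  have htop : ∀ n, ∀ i : {i | v ∈ X.bag i}, X.depth i.1 = n →
      ((tree X).induce {i | v ∈ X.bag i}).Reachable i ⟨X.top v, X.top_mem v⟩ := by
    intro n
    induction n using Nat.strong_induction_on with
    | _ n ih =>
      intro i hi
      by_cases h : i.1 = X.top v
      · rw [show i = ⟨X.top v, X.top_mem v⟩ from Subtype.ext h]
      · obtain ⟨h1, h2⟩ := X.up v i.1 i.2 h
        have hadj : ((tree X).induce {i | v ∈ X.bag i}).Adj i ⟨X.par i.1, h2⟩ := tree_adj_par X h1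
        exact hadj.reachable.trans (ih _ (hi ▸ X.depth_lt _ h1) _ rfl)
  exact fun i j => (htop _ i rfl).trans (htop _ j rfl).symm

theorem bag_edge (X : Dec P k) {x y : P.V} (h : (graph P).Adj x y) :
    ∃ i, x ∈ X.bag i ∧ y ∈ X.bag i := by
  rcases ((SimpleGraph.fromRel_adj _ _ _).mp h).2 with ⟨e, rfl, rfl⟩ | ⟨e, rfl, rfl⟩
  exacts [⟨_, X.at_fst e, X.at_snd e⟩, ⟨_, X.at_snd e, X.at_fst e⟩]

end Vale.Agent.P235.Width
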