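import Mathlib

/-!
Self-substituting networks: a network `H` is turned into a gadget with two apices and, for each
edge `e = rs`, two new vertices above `r` and `s`; the gadget replaces every edge of a network.
-/

open Finset

namespace Vale.Agent.P235.Width

/-- A finite connected network: `D` bounds the range of every potential. -/
structure Net where
  V : Type
  E : Type
  [finV : Fintype V]
  [finE : Fintype E]
  fst : E → V
  snd : E → V
  len : E → ℝ
  pos : ∀ e, 0 < len e
  ne : ∀ e, fst e ≠ snd e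
  e0 : E
  D : ℝ
  hD : ∀ φ : V → ℝ, (∀ e, |φ (fst e) - φ (snd e)| ≤ len e) → ∀ x y, φ x - φ y ≤ D

attribute [instance] Net.finV Net.finE

/-- A potential: a map with slope at most one on every edge. -/
def Net.Lip (P : Net) (φ : P.V → ℝ) : Prop :=
  ∀ e, |φ (P.fst e) - φ (P.snd e)| ≤ P.len e

/-- The inequality on six points that is used for `L₁`. -/
def Six {X : Type} (d : X → X → ℝ) : Prop :=
  ∀ A B u v r s : X, d u v + d r s + 4 * d A B ≤
    d r u + d s v + (d A u + d r u + d r B) + (d A u + d s u + d s B) +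
      (d A v + d r v + d r B) + (d A v + d s v + d s B)

/-- `d` dominates the network distance. -/
def Net.Low (P : Net) (d : P.V → P.V → ℝ) : Prop :=
  ∀ φ, P.Lip φ → ∀ x y, φ x - φ y ≤ d x y

/-- `d` stretches no edge more than `C` times. -/
def Net.Str (P : Net) (d : P.V → P.V → ℝ) (C : ℝ) : Prop :=
  ∀ e, d (P.fst e) (P.snd e) ≤ C * P.len e

/-- Every admissible `d` stretches some edge at least `c` times. -/
def Net.Forces (P : Net) (c : ℝ) : Prop :=
  ∀ d : P.V → P.V → ℝ, Six d → P.Low d → ∀ C, P.Str d C → c ≤ C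

theorem D_nonneg (H : Net) : 0 ≤ H.D := by
  simpa using H.hD (fun _ => 0) (fun e => by simpa using (H.pos e).le) (H.fst H.e0) (H.fst H.e0)

/-- Half of the length of the gadget of `H`. -/
def gap (H : Net) : ℝ := 1 + H.D + ∑ e, H.len e

theorem len_add_D_lt_gap (H : Net) (e : H.E) : H.len e + H.D < gap H := by
  have := Finset.single_le_sum (f := H.len) (fun i _ => (H.pos i).le) (Finset.mem_univ e)
  simp only [gap]
  linarith

theorem gap_pos (H : Net) : 0 < gap H := by
  have := len_add_D_lt_gap H H.e0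
  linarith [H.pos H.e0, D_nonneg H]

theorem len_lt_gap (H : Net) (e : H.E) : H.len e < gap H := by
  linarith [len_add_D_lt_gap H e, D_nonneg H]

/-- The vertices of the substitution. -/
abbrev SV (H P : Net) : Type := P.V ⊕ (P.E × (H.V ⊕ H.E × Bool))

/-- The edges of the substitution. -/
abbrev SE (H P : Net) : Type := P.E × ((H.E × Bool × Bool) ⊕ (H.E × Bool) ⊕ H.V)

/-- The two ends of an edge. -/
def endp (H : Net) (e : H.E) (c : Bool) : H.V := bif c then H.snd e else H.fst e

/-- The scale of a copy. -/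
noncomputable def sc (H P : Net) (j : P.E) : ℝ := P.len j / (2 * gap H)

theorem sc_pos (H P : Net) (j : P.E) : 0 < sc H P j :=
  div_pos (P.pos j) (by linarith [gap_pos H])

theorem sc_mul (H P : Net) (j : P.E) : sc H P j * (2 * gap H) = P.len j :=
  div_mul_cancel₀ _ (by linarith [gap_pos H])

/-- The first end of an edge of the substitution. -/
def sFst (H P : Net) : SE H P → SV H P
  | (j, Sum.inl (e, _, c)) => Sum.inr (j, Sum.inl (endp H e c))
  | (j, Sum.inr (Sum.inl _)) => Sum.inl (P.fst j)
  | (j, Sum.inr (Sum.inr r)) => Sum.inr (j, Sum.inl r)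

/-- The second end of an edge of the substitution. -/
def sSnd (H P : Net) : SE H P → SV H P
  | (j, Sum.inl (e, b, _)) => Sum.inr (j, Sum.inr (e, b))
  | (j, Sum.inr (Sum.inl eb)) => Sum.inr (j, Sum.inr eb)
  | (j, Sum.inr (Sum.inr _)) => Sum.inl (P.snd j)

/-- The lengths in the substitution. -/
noncomputable def sLen (H P : Net) : SE H P → ℝ
  | (j, Sum.inl (e, _, _)) => sc H P j * (H.len e / 2)
  | (j, Sum.inr (Sum.inl eb)) => sc H P j * (gap H - H.len eb.1 / 2)
  | (j, Sum.inr (Sum.inr _)) => sc H P j * gap H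

theorem sLen_pos (H P : Net) : ∀ x, 0 < sLen H P x
  | (j, Sum.inl (e, _, _)) => mul_pos (sc_pos H P j) (half_pos (H.pos e))
  | (j, Sum.inr (Sum.inl eb)) =>
    mul_pos (sc_pos H P j) (by linarith [len_lt_gap H eb.1, H.pos eb.1])
  | (j, Sum.inr (Sum.inr _)) => mul_pos (sc_pos H P j) (gap_pos H)

theorem sNe (H P : Net) : ∀ x, sFst H P x ≠ sSnd H P x
  | (_, Sum.inl (_, _, _)) => by simp [sFst, sSnd]
  | (_, Sum.inr (Sum.inl _)) => by simp [sFst, sSnd]
  | (_, Sum.inr (Sum.inr _)) => by simp [sFst, sSnd]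

theorem lip_restrict (H P : Net) (ψ : SV H P → ℝ)
    (h : ∀ x, |ψ (sFst H P x) - ψ (sSnd H P x)| ≤ sLen H P x) :
    P.Lip fun v => ψ (Sum.inl v) := by
  intro j
  have h1 := h (j, Sum.inr (Sum.inl (H.e0, false)))
  have h2 := h (j, Sum.inl (H.e0, false, false))
  have h3 := h (j, Sum.inr (Sum.inr (H.fst H.e0)))
  simp only [sFst, sSnd, sLen, endp, cond_false, abs_le] at h1 h2 h3 ⊢
  have := sc_mul H P j
  constructor <;> linarith

/-- Replace every edge of `P` by the gadget of `H`. -/
noncomputable def step (H P : Net) : Net where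
  V := SV H P
  E := SE H P
  fst := sFst H P
  snd := sSnd H P
  len := sLen H P
  pos := sLen_pos H P
  ne := sNe H P
  e0 := (P.e0, Sum.inr (Sum.inr (H.fst H.e0)))
  D := P.D + 2 * ∑ j, P.len j
  hD := by
    intro ψ h x y
    have near : ∀ x, ∃ a, |ψ x - ψ (Sum.inl a)| ≤ ∑ j, P.len j := by
      have hle : ∀ j, P.len j ≤ ∑ i, P.len i := fun j =>
        Finset.single_le_sum (f := P.len) (fun i _ => (P.pos i).le) (Finset.mem_univ j)
      rintro (a | ⟨j, r | eb⟩)
      · exact ⟨a, by simpa using Finset.sum_nonneg fun i _ => (P.pos i).le⟩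
      · have h1 := h (j, Sum.inr (Sum.inr r))
        simp only [sFst, sSnd, sLen] at h1
        exact ⟨P.snd j, h1.trans (by linarith [hle j, sc_mul H P j, P.pos j])⟩
      · have h1 := h (j, Sum.inr (Sum.inl eb))
        simp only [sFst, sSnd, sLen] at h1
        rw [abs_sub_comm] at h1
        have := mul_pos (sc_pos H P j) (H.pos eb.1)
        exact ⟨P.fst j, h1.trans (by linarith [hle j, sc_mul H P j, P.pos j])⟩
    obtain ⟨a, ha⟩ := near x
    obtain ⟨b, hb⟩ := near y
    have := P.hD (fun v => ψ (Sum.inl v)) (lip_restrict H P ψ h) a b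
    rw [abs_le] at ha hb
    linarith

/-- Extend a potential linearly in the height. -/
noncomputable def lift (H P : Net) (φ : P.V → ℝ) : SV H P → ℝ
  | Sum.inl a => φ a
  | Sum.inr (j, Sum.inl _) =>
    φ (P.fst j) + gap H / (2 * gap H) * (φ (P.snd j) - φ (P.fst j))
  | Sum.inr (j, Sum.inr eb) =>
    φ (P.fst j) + (gap H - H.len eb.1 / 2) / (2 * gap H) * (φ (P.snd j) - φ (P.fst j))

theorem lift_lip (H P : Net) (φ : P.V → ℝ) (hφ : P.Lip φ) : (step H P).Lip (lift H P φ) := by
  have hg := gap_pos H
  have key : ∀ (j : P.E) (c t : ℝ), |t| ≤ c →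
      |t / (2 * gap H) * (φ (P.snd j) - φ (P.fst j))| ≤ sc H P j * c := by
    intro j c t ht
    rw [abs_mul, abs_div, abs_of_pos (by linarith : 0 < 2 * gap H), abs_sub_comm]
    calc |t| / (2 * gap H) * |φ (P.fst j) - φ (P.snd j)| ≤ c / (2 * gap H) * P.len j :=
          mul_le_mul (div_le_div_of_nonneg_right ht (by linarith)) (hφ j) (abs_nonneg _)
            (div_nonneg ((abs_nonneg t).trans ht) (by linarith))
      _ = _ := by rw [sc]; ring
  rintro ⟨j, ⟨e, b, c⟩ | eb | r⟩
  · have := key j (H.len e / 2) (H.len e / 2) (abs_of_pos (half_pos (H.pos e))).le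
    convert this using 2 <;> simp only [step, sFst, sSnd, lift, sLen]
    ring
  · have h0 : 0 < gap H - H.len eb.1 / 2 := by linarith [len_lt_gap H eb.1, H.pos eb.1]
    have := key j _ (-(gap H - H.len eb.1 / 2)) (by rw [abs_neg, abs_of_pos h0])
    convert this using 2 <;> simp only [step, sFst, sSnd, lift, sLen]
    ring
  · have := key j _ (-gap H) (by rw [abs_neg, abs_of_pos hg])
    convert this using 2 <;> simp only [step, sFst, sSnd, lift, sLen]
    field_simp
    ring

open Classical in
/-- A potential living on one copy. -/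
noncomputable def local' (H P : Net) (j : P.E) (w : H.V ⊕ H.E × Bool → ℝ) : SV H P → ℝ
  | Sum.inl _ => 0
  | Sum.inr (i, x) => if i = j then sc H P j * w x else 0

theorem local_lip (H P : Net) (j : P.E) (w : H.V ⊕ H.E × Bool → ℝ)
    (hc : ∀ e b c, |w (Sum.inl (endp H e c)) - w (Sum.inr (e, b))| ≤ H.len e / 2)
    (ht : ∀ eb, |w (Sum.inr eb)| ≤ gap H - H.len eb.1 / 2)
    (hb : ∀ r, |w (Sum.inl r)| ≤ gap H) :
    (step H P).Lip (local' H P j w) := by
  intro x
  have hpos := ((step H P).pos x).le
  obtain ⟨i, y⟩ := x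
  have hs := sc_pos H P j
  rcases eq_or_ne i j with rfl | hij
  · rcases y with ⟨e, b, c⟩ | eb | r <;>
      simp only [step, sFst, sSnd, local', sLen, if_true, zero_sub, sub_zero, abs_neg, ← mul_sub,
        abs_mul, abs_of_pos hs]
    exacts [mul_le_mul_of_nonneg_left (hc e b c) hs.le,
      mul_le_mul_of_nonneg_left (ht eb) hs.le, mul_le_mul_of_nonneg_left (hb r) hs.le]
  · rcases y with ⟨e, b, c⟩ | eb | r <;>
      simp only [step, sFst, sSnd, local', hij, if_false, sub_zero, abs_zero] at hpos ⊢ <;>
      exact hpos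

/-- If the substitution is stretched less than `c + 1 - δ`, then every edge it replaces is
stretched less by `η`. -/
theorem step_drop (H P : Net) {c δ η M : ℝ} (hH : H.Forces c)
    (hη : ∀ e, 8 * gap H * η ≤ δ * H.len e) {d : SV H P → SV H P → ℝ} (h6 : Six d)
    (hlow : (step H P).Low d) (hstr : (step H P).Str d M) (hM : M < c + 1 - δ) :
    P.Str (fun a b => d (Sum.inl a) (Sum.inl b)) (M - η) := by
  intro j
  by_contra hgt
  rw [not_le] at hgt
  have hs := sc_pos H P j
  set σ := sc H P j with hσ
  let d' : H.V → H.V → ℝ := fun x y =>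
    σ⁻¹ * d (Sum.inr (j, Sum.inl x)) (Sum.inr (j, Sum.inl y))
  have h6' : Six d' := by
    intro A B u v r s
    have := mul_le_mul_of_nonneg_left (h6 (Sum.inr (j, Sum.inl A)) (Sum.inr (j, Sum.inl B))
      (Sum.inr (j, Sum.inl u)) (Sum.inr (j, Sum.inl v)) (Sum.inr (j, Sum.inl r))
      (Sum.inr (j, Sum.inl s))) (inv_pos.mpr hs).le
    simp only [d']
    linarith
  have hlow' : H.Low d' := by
    intro φ hφ x y
    have hdiff : ∀ a, |φ a - φ y| ≤ H.D := fun a =>
      abs_sub_le_iff.mpr ⟨H.hD φ hφ a y, H.hD φ hφ y a⟩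
    let w : H.V ⊕ H.E × Bool → ℝ := Sum.elim (fun r => φ r - φ y)
      fun eb => (φ (H.fst eb.1) + φ (H.snd eb.1)) / 2 - φ y
    have := hlow _ (local_lip H P j w
      (fun e b c => by
        have := hφ e
        rw [abs_le] at this ⊢
        cases c <;> simp only [w, endp, Sum.elim_inl, Sum.elim_inr, cond_true, cond_false] <;>
          constructor <;> linarith)
      (fun eb => by
        have h1 := hdiff (H.fst eb.1)
        have h2 := hdiff (H.snd eb.1)
        have := len_add_D_lt_gap H eb.1
        have := H.pos eb.1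
        rw [abs_le] at h1 h2 ⊢
        simp only [w, Sum.elim_inr]
        constructor <;> linarith)
      (fun r => (hdiff r).trans (by linarith [len_add_D_lt_gap H H.e0, H.pos H.e0])))
      (Sum.inr (j, Sum.inl x)) (Sum.inr (j, Sum.inl y))
    simp only [local', if_true, w, Sum.elim_inl, sub_self, mul_zero, sub_zero, ← hσ] at this
    simp only [d']
    rw [inv_mul_eq_div, le_div_iff₀ hs, mul_comm]
    exact this
  have hstr' : H.Str d' (M - 1 + δ) := by
    intro e
    classical
    let w : H.V ⊕ H.E × Bool → ℝ := Sum.elim (fun _ => 0)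
      fun eb => if eb.1 = e then (bif eb.2 then -(H.len e / 2) else H.len e / 2) else 0
    have huv := hlow _ (local_lip H P j w
      (fun e' b c => by
        have := H.pos e'
        rcases eq_or_ne e' e with rfl | hne
        · cases b <;> simp [w, abs_of_pos (half_pos this)]
        · simp [w, hne]
          linarith)
      (fun eb => by
        have := H.pos eb.1
        have := len_lt_gap H eb.1
        obtain ⟨e', b⟩ := eb
        rcases eq_or_ne e' e with rfl | hne
        · cases b <;> simp [w, abs_of_pos (half_pos (H.pos e'))] <;> linarith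
        · simp [w, hne]
          linarith)
      (fun r => by simp [w, (gap_pos H).le]))
      (Sum.inr (j, Sum.inr (e, false))) (Sum.inr (j, Sum.inr (e, true)))
    simp only [local', if_true, w, Sum.elim_inr, cond_true, cond_false, ← hσ] at huv
    have sA : ∀ b, d (Sum.inl (P.fst j)) (Sum.inr (j, Sum.inr (e, b))) ≤
        M * (σ * (gap H - H.len e / 2)) := fun b => hstr (j, Sum.inr (Sum.inl (e, b)))
    have sB : ∀ r, d (Sum.inr (j, Sum.inl r)) (Sum.inl (P.snd j)) ≤ M * (σ * gap H) :=
      fun r => hstr (j, Sum.inr (Sum.inr r))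
    have sC : ∀ b c, d (Sum.inr (j, Sum.inl (endp H e c))) (Sum.inr (j, Sum.inr (e, b))) ≤
        M * (σ * (H.len e / 2)) := fun b c => hstr (j, Sum.inl (e, b, c))
    have h := h6 (Sum.inl (P.fst j)) (Sum.inl (P.snd j)) (Sum.inr (j, Sum.inr (e, false)))
      (Sum.inr (j, Sum.inr (e, true))) (Sum.inr (j, Sum.inl (H.fst e)))
      (Sum.inr (j, Sum.inl (H.snd e)))
    have c1 := sC false false
    have c2 := sC false true
    have c3 := sC true false
    have c4 := sC true true
    simp only [endp, cond_true, cond_false] at c1 c2 c3 c4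
    have hl := sc_mul H P j
    rw [← hσ] at hl
    rw [← hl] at hgt
    simp only at hgt
    have hkey := mul_le_mul_of_nonneg_left (hη e) hs.le
    simp only [d']
    rw [inv_mul_le_iff₀ hs]
    linarith [sA false, sA true, sB (H.fst e), sB (H.snd e)]
  have := hH d' h6' hlow' _ hstr'
  linarith

/-- The single edge. -/
def edgeNet : Net where
  V := Bool
  E := Unit
  fst := fun _ => true
  snd := fun _ => false
  len := fun _ => 1
  pos := fun _ => one_pos
  ne := fun _ => by simp
  e0 := ()
  D := 1
  hD := by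
    intro φ h x y
    have := h ()
    rw [abs_le] at this
    cases x <;> cases y <;> linarith

theorem edgeNet_forces : edgeNet.Forces 1 := by
  intro d _ hlow C hC
  have h1 := hlow (fun b : Bool => if b = true then (1 : ℝ) else 0)
    (fun _ => by simp [edgeNet]) true false
  have h2 := hC ()
  simp [edgeNet] at h1 h2
  linarith

/-- `N` rounds of substitution of the gadget of `H`. -/
noncomputable def pow (H : Net) : ℕ → Net
  | 0 => edgeNet
  | N + 1 => step H (pow H N)

theorem pow_forces (H : Net) {c δ : ℝ} (hH : H.Forces c) (hδ : 0 < δ) :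
    ∃ N, (pow H N).Forces (c + 1 - δ) := by
  obtain ⟨em, -, hem⟩ := Finset.exists_min_image Finset.univ H.len ⟨H.e0, Finset.mem_univ _⟩
  have hg := gap_pos H
  set η := δ * H.len em / (8 * gap H) with hη
  have hη0 : 0 < η := div_pos (mul_pos hδ (H.pos em)) (by linarith)
  have hηe : ∀ e, 8 * gap H * η ≤ δ * H.len e := fun e => by
    rw [hη, mul_div_cancel₀ _ (by linarith)]
    exact mul_le_mul_of_nonneg_left (hem e (Finset.mem_univ e)) hδ.le
  have main : ∀ (N : ℕ) (d : (pow H N).V → (pow H N).V → ℝ), Six d → (pow H N).Low d →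
      ∀ M, (pow H N).Str d M → M < c + 1 - δ → N * η + 1 ≤ M := by
    intro N
    induction N with
    | zero =>
      intro d h6 hlow M hM _
      simpa using edgeNet_forces d h6 hlow M hM
    | succ N ih =>
      intro d h6 hlow M hM hlt
      have := ih (fun a b => d (Sum.inl a) (Sum.inl b))
        (fun A B u v r s => h6 _ _ _ _ _ _)
        (fun φ hφ x y => hlow _ (lift_lip H _ φ hφ) (Sum.inl x) (Sum.inl y))
        (M - η) (step_drop H _ hH hηe h6 hlow hM hlt) (by linarith)
      push_cast
      linarith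
  obtain ⟨N, hN⟩ := exists_nat_gt (c / η)
  refine ⟨N, fun d h6 hlow C hC => le_of_not_gt fun hlt => ?_⟩
  have := main N d h6 hlow C hC hlt
  rw [div_lt_iff₀ hη0] at hN
  linarith

end Vale.Agent.P235.Width
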